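import Vale.Agent.P245.Poly.Defs

/-!
# P245: interfaces for the bound `C_LS ≤ C a² (1 + log (n + 1))²`

As `Poly/Defs.lean`, with the later time `√t` in place of `M t`.
-/

namespace Vale.Agent.P245.Poly

open MeasureTheory ProbabilityTheory
open scoped RealInnerProductSpace ENNReal

/-- The size of the Bregman divergence at time `t`: `√(L √t) / t`. -/
noncomputable def bscale (n : ℕ) (t : ℝ) : ℝ := Real.sqrt (lgn n * Real.sqrt t) / t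

/-- D: with high probability all tilts at time `t ≤ c / L²` are smooth at the scale `bscale`. -/
def PolyBreg2 : Prop :=
  ∃ c A : ℝ, 0 < c ∧ 0 < A ∧ ∀ (n : ℕ) (μ : Measure (Rn n)), 1 ≤ n →
    IsProbabilityMeasure μ → IsSLC 0 μ → BddSupp μ → SubG μ →
    ∀ (t R : ℝ), 0 < t → t ≤ c / lgn n ^ 2 → 0 < R → R ≤ ((n : ℝ) + 2) ^ 30 →
      obs μ t {th | ∃ d : Rn n, R ≤ ‖d‖ ∧ ‖d‖ ≤ 2 * R ∧ A * bscale n t * R ^ 2 < Bg μ t th d}
        ≤ ENNReal.ofReal ((((n : ℝ) + 2) ^ 30)⁻¹)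

/-- The initial value is quadratic at every scale. -/
def BregInit2 (C : ℝ) : Prop :=
  ∀ (n : ℕ) (μ : Measure (Rn n)), IsProbabilityMeasure μ → BddSupp μ → SubG μ →
    ∀ u : ℝ, 0 ≤ u → ∀ d : Rn n, step μ 0 u 0 (fun q => Bg μ u q d) ≤ C * ‖d‖ ^ 2

/-- E: Gaussian concentration at the scale `(1 + log (n + 1))²`. -/
def PolyConc2 : Prop :=
  ∃ C : ℝ, 1 ≤ C ∧ ∀ (n : ℕ) (μ : Measure (Rn n)), 1 ≤ n →
    IsProbabilityMeasure μ → IsSLC 0 μ → BddSupp μ → SubG μ →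
    ∀ f, Test f → (∀ x, ‖fderiv ℝ f x‖ ≤ 1) → (∀ x, 0 ≤ f x) →
      (2 : ℝ≥0∞)⁻¹ ≤ μ {x | f x ≤ 1} →
      ∀ r : ℝ, 0 ≤ r →
        μ {x | r ≤ f x} ≤ ENNReal.ofReal (C * Real.exp (-r ^ 2 / (C * lgn n ^ 2)))

/-- H: the compactly supported case. -/
def PolyBdd2 : Prop :=
  ∃ C : ℝ, 0 < C ∧ ∀ (n : ℕ) (μ : Measure (Rn n)), 1 ≤ n →
    IsProbabilityMeasure μ → IsSLC 0 μ → BddSupp μ → SubG μ →
    ∀ f, Test f → entropy μ (fun x => f x ^ 2) ≤ C * lgn n ^ 2 * energy μ f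

end Vale.Agent.P245.Poly
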