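import Vale.Agent.P245.Poly.Main
import Vale.Agent.P245.Poly.Two.Defs

/-!
# P245: the Bregman bound with the later time `√t`, at every scale

As in `Poly/Main.lean`; small scales use one tensor factor and a centred initial value.
-/

namespace Vale.Agent.P245.Poly

open MeasureTheory ProbabilityTheory Filter Topology Matrix
open scoped RealInnerProductSpace ENNReal

namespace Main

variable {n q : ℕ} {μ : Measure (Rn n)} {t t' K β h : ℝ}

/-- Lower bound for the averaged exponent along a path. -/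
lemma path_bound2 (hKQ : KronQuad) (hV : SecantValue) {C0 : ℝ} (hI : BregInit2 C0) {Cb : ℝ}
    (hB : ∀ (n : ℕ) (μ : Measure (Rn n)), IsProbabilityMeasure μ → IsSLC 0 μ →
      BddSupp μ → ∀ (t t' u lam : ℝ) (th : Rn n), 0 < u → u ≤ t → t < t' → t' ≤ 1 → 0 ≤ lam →
      (∀ w : Rn n, vr (tilt μ u th) (fun x => ⟪x, w⟫) ≤ lam * ‖w‖ ^ 2) →
      ∀ v : Rn n, ‖v‖ = 1 →
        (∀ xi, ∑ j, ∑ k, (∑ l, v l * dsec μ t t' u th xi j l k) ^ 2
          ≤ Cb * (1 + lam * Real.sqrt (lam / u) * t' ^ 2) / (t' ^ 2 * (t' - t))) ∧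
        ∀ R : ℝ, 0 < R →
          ∫ xi, ∑ k, (∑ j, ∑ l, v j * v l *
              dsec μ t t' u th (xi + (R / Real.sqrt ((t' - t) / 2)) • v) j l k) ^ 2
            ∂stdGaussian (Rn n)
          ≤ Cb * (1 + lam * Real.sqrt (lam / u) * t' ^ 2) / (t' ^ 2 * R ^ 2))
    (hCb : 0 ≤ Cb) [IsProbabilityMeasure μ] (hμ : IsSLC 0 μ) (hb : BddSupp μ) (hS : SubG μ)
    (H : MartExp.Reg μ t t' K) (ht : 0 < t) (htt : t < t') (ht1 : t' ≤ 1) (hβ : 0 ≤ β) {N : ℕ}
    (hh : 0 < h) (hNh : (N : ℝ) * h = t) {R : ℝ} (hR : 0 < R)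
    (w : Fin (N + 1) → Rn n) (lam : Fin N → ℝ) (hl0 : ∀ i, 0 ≤ lam i)
    (hl : ∀ (i : Fin N) (v : Rn n), vr (tilt μ (((i : ℕ) + 1 : ℝ) * h) (w i.castSucc))
      (fun x => ⟪x, v⟫) ≤ lam i * ‖v‖ ^ 2)
    {x : Rn n} (hx1 : R ≤ ‖x‖) :
    β * q * (‖x‖⁻¹ ^ 2 * step μ t (t' - t) (w (Fin.last N)) (fun p => Bg μ t' p x) - C0)
      - β ^ 2 / 2 * (Cb * (q / (t' ^ 2 * (t' - t)) + (q : ℝ) ^ 2 / (t' ^ 2 * max (R ^ 2) (t' - t)))
          * ∑ i : Fin N, h * Phi t' (((i : ℕ) + 1 : ℝ) * h) (lam i))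
    ≤ ∫ xi, Fq μ t t' q β h w x (xi + (Real.sqrt ((t' - t) / 2))⁻¹ • x) ∂gam n := by
  have hx0 : x ≠ 0 := norm_pos_iff.1 (by linarith)
  set s := Real.sqrt ((t' - t) / 2) with hs
  set d := s⁻¹ • x with hd
  set v := dir x with hv
  have hvu : v ⬝ᵥ v = 1 := dir_unit hx0
  set ψ := tens q v with hψ
  set M : ℝ → Rn n → Rn n → Matrix (Fin n) (Fin n) ℝ := fun u th xi =>
    Matrix.of fun j l => secant μ t t' u th xi j l with hM
  set D : ℝ → Rn n → Rn n → Fin n → Matrix (Fin n) (Fin n) ℝ := fun u th xi k =>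
    Matrix.of fun j l => dsec μ t t' u th xi j l k with hD
  have hMs : ∀ u th xi, (M u th xi).IsSymm := fun u th xi => by
    ext j l; simp [hM, H.symm u th xi j l]
  have hDs : ∀ u th xi k, (D u th xi k).IsSymm := fun u th xi k => by
    ext j l
    simp only [hD, transpose_apply, Matrix.of_apply, dsec]
    exact congrArg (fun f => D1 k f th) (funext fun p => H.symm u p xi l j)
  have hTm : ∀ u th xi, ψ ⬝ᵥ (MartExp.Tm μ t t' q u th xi *ᵥ ψ)
      = q * (v ⬝ᵥ (M u th xi *ᵥ v)) := fun u th xi =>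
    (hKQ n q (M u th xi) v (hMs u th xi) hvu).2.2.1
  have hQ : ∀ u th xi, ψ ⬝ᵥ (MartExp.Qm μ t t' q u th xi *ᵥ ψ)
      ≤ q * ∑ k, (D u th xi k *ᵥ v) ⬝ᵥ (D u th xi k *ᵥ v)
        + (q : ℝ) ^ 2 * ∑ k, (v ⬝ᵥ (D u th xi k *ᵥ v)) ^ 2 := by
    intro u th xi
    rw [MartExp.Qm, sum_mulVec, dotProduct_sum, Finset.mul_sum, Finset.mul_sum,
      ← Finset.sum_add_distrib]
    exact Finset.sum_le_sum fun k _ => (hKQ n q (D u th xi k) v (hDs u th xi k) hvu).2.2.2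
  have hexp : ∀ xi, Fq μ t t' q β h w x xi
      = β * (q * (v ⬝ᵥ (M ((N : ℝ) * h) (w (Fin.last N)) xi *ᵥ v))
          - q * (v ⬝ᵥ (M 0 0 xi *ᵥ v)))
        - β ^ 2 * h / 2 * ∑ i : Fin N,
            ψ ⬝ᵥ (MartExp.Qm μ t t' q (((i : ℕ) + 1 : ℝ) * h) (w i.castSucc) xi *ᵥ ψ) := by
    intro xi
    simp only [Fq, MartExp.Xj, sub_mulVec, smul_mulVec, dotProduct_sub, dotProduct_smul, smul_eq_mul,
      sum_mulVec, dotProduct_sum, ← hv, ← hψ, hTm]
  have hcol : ∀ (i : Fin N) xi,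
      ∑ k, (D (((i : ℕ) + 1 : ℝ) * h) (w i.castSucc) xi k *ᵥ v)
          ⬝ᵥ (D (((i : ℕ) + 1 : ℝ) * h) (w i.castSucc) xi k *ᵥ v)
        ≤ Cb * Phi t' (((i : ℕ) + 1 : ℝ) * h) (lam i) / (t' ^ 2 * (t' - t)) := by
    intro i xi
    have hu : ((i : ℕ) + 1 : ℝ) * h ≤ t := by
      rw [← hNh]
      refine mul_le_mul_of_nonneg_right ?_ hh.le
      have : (i : ℕ) + 1 ≤ N := i.2
      exact_mod_cast this
    have hnv : ‖‖x‖⁻¹ • x‖ = 1 := norm_smul_inv_norm hx0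
    refine le_of_eq_of_le ?_ ((hB n μ inferInstance hμ hb t t' _ (lam i) (w i.castSucc)
      (by positivity) hu htt ht1 (hl0 i) (hl i) _ hnv).1 xi)
    rw [Finset.sum_comm]
    refine Finset.sum_congr rfl fun k _ => ?_
    simp only [dotProduct, mulVec, hD, Matrix.of_apply, hv, dir, PiLp.smul_apply, smul_eq_mul, ← pow_two]
    exact Finset.sum_congr rfl fun j _ => congrArg (· ^ 2)
      (Finset.sum_congr rfl fun l _ => by ring)
  have hwq' : ∀ (i : Fin N),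
      ∫ xi, ∑ k, (v ⬝ᵥ (D (((i : ℕ) + 1 : ℝ) * h) (w i.castSucc) (xi + d) k *ᵥ v)) ^ 2 ∂gam n
        ≤ Cb * Phi t' (((i : ℕ) + 1 : ℝ) * h) (lam i) / (t' ^ 2 * R ^ 2) := by
    intro i
    have hu : ((i : ℕ) + 1 : ℝ) * h ≤ t := by
      rw [← hNh]
      refine mul_le_mul_of_nonneg_right ?_ hh.le
      have : (i : ℕ) + 1 ≤ N := i.2
      exact_mod_cast this
    have hnv : ‖‖x‖⁻¹ • x‖ = 1 := norm_smul_inv_norm hx0
    have h1 := (hB n μ inferInstance hμ hb t t' _ (lam i) (w i.castSucc)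
      (by positivity) hu htt ht1 (hl0 i) (hl i) _ hnv).2 ‖x‖ (norm_pos_iff.2 hx0)
    have e : (‖x‖ / Real.sqrt ((t' - t) / 2)) • (‖x‖⁻¹ • x) = d := by
      rw [hd, smul_smul, ← hs]
      congr 1
      field_simp
    rw [e] at h1
    refine le_trans (le_of_eq ?_) (h1.trans (div_le_div_of_nonneg_left
      (mul_nonneg hCb (by have := hl0 i; positivity)) ?_ ?_))
    · refine integral_congr_ae (ae_of_all _ fun xi => Finset.sum_congr rfl fun k _ => ?_)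
      simp only [dotProduct, mulVec, hD, Matrix.of_apply, hv, dir, PiLp.smul_apply, smul_eq_mul,
        Finset.mul_sum]
      exact congrArg (· ^ 2) (Finset.sum_congr rfl fun j _ => Finset.sum_congr rfl fun l _ => by ring)
    · have : 0 < t' := ht.trans htt
      positivity
    · exact mul_le_mul_of_nonneg_left (pow_le_pow_left₀ (by linarith) hx1 2) (sq_nonneg _)
  have hwq : ∀ (i : Fin N),
      ∫ xi, ∑ k, (v ⬝ᵥ (D (((i : ℕ) + 1 : ℝ) * h) (w i.castSucc) (xi + d) k *ᵥ v)) ^ 2 ∂gam n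
        ≤ Cb * Phi t' (((i : ℕ) + 1 : ℝ) * h) (lam i) / (t' ^ 2 * max (R ^ 2) (t' - t)) := by
    intro i
    rcases max_cases (R ^ 2) (t' - t) with ⟨e, -⟩ | ⟨e, -⟩
    · rw [e]; exact hwq' i
    · rw [e]
      refine (integral_mono_of_nonneg (ae_of_all _ fun xi => Finset.sum_nonneg fun k _ => sq_nonneg _)
        (integrable_const (Cb * Phi t' (((i : ℕ) + 1 : ℝ) * h) (lam i) / (t' ^ 2 * (t' - t))))
        (ae_of_all _ fun xi => (Finset.sum_le_sum fun k _ => ?_).trans (hcol i (xi + d)))).trans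
        (le_of_eq (by simp))
      have hcs := Finset.sum_mul_sq_le_sq_mul_sq Finset.univ v
        (D (((i : ℕ) + 1 : ℝ) * h) (w i.castSucc) (xi + d) k *ᵥ v)
      have e1 : ∑ j, v j ^ 2 = 1 := by
        rw [← hvu]; simp only [dotProduct, pow_two]
      rw [e1, one_mul] at hcs
      refine hcs.trans (le_of_eq ?_)
      simp only [dotProduct, pow_two]
  -- integrate
  have hmem : ∀ i : Fin N, ((i : ℕ) + 1 : ℝ) * h ∈ Set.Icc 0 t := fun i => by
    refine ⟨by positivity, ?_⟩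
    rw [← hNh]
    refine mul_le_mul_of_nonneg_right ?_ hh.le
    have : (i : ℕ) + 1 ≤ N := i.2
    exact_mod_cast this
  have iM : ∀ u ∈ Set.Icc 0 t, ∀ th, Integrable (fun xi => v ⬝ᵥ (M u th (xi + d) *ᵥ v)) (gam n) := by
    intro u hu th
    simp only [dotProduct, mulVec, hM, Matrix.of_apply]
    refine integrable_finsetSum _ fun j _ => Integrable.const_mul (integrable_finsetSum _ fun l _ =>
      Integrable.mul_const ?_ _) _
    exact Chain.integrable_of_bdd (measurable_secant_pair H hu (f := fun _ => th)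
      (g := fun xi => xi + d) measurable_const (measurable_add_const d) j l j).1
      fun xi => (H.bd u hu th (xi + d) j l).1
  have iD : ∀ (i : Fin N) (j l k : Fin n), Integrable (fun xi =>
      dsec μ t t' (((i : ℕ) + 1 : ℝ) * h) (w i.castSucc) (xi + d) j l k) (gam n) := fun i j l k =>
    Chain.integrable_of_bdd (measurable_secant_pair H (hmem i) (f := fun _ => w i.castSucc)
      (g := fun xi => xi + d) measurable_const (measurable_add_const d) j l k).2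
      fun xi => (H.bd _ (hmem i) _ (xi + d) j l).2.1 k
  have iw : ∀ i : Fin N, Integrable (fun xi =>
      ∑ k, (v ⬝ᵥ (D (((i : ℕ) + 1 : ℝ) * h) (w i.castSucc) (xi + d) k *ᵥ v)) ^ 2) (gam n) := by
    intro i
    refine integrable_finsetSum _ fun k _ => ?_
    simp only [dotProduct, mulVec, hD, Matrix.of_apply]
    refine Chain.integrable_of_bdd (Measurable.pow_const ?_ 2)
      (C := (∑ j, |v j| * ∑ l, K * |v l|) ^ 2) fun xi => ?_
    · exact Finset.measurable_sum _ fun j _ => measurable_const.mul (Finset.measurable_sum _ fun l _ =>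
        (measurable_secant_pair H (hmem i) (f := fun _ => w i.castSucc) (g := fun xi => xi + d)
          measurable_const (measurable_add_const d) j l k).2.mul_const _)
    · rw [abs_pow]
      refine pow_le_pow_left₀ (abs_nonneg _) ((Finset.abs_sum_le_sum_abs _ _).trans
        (Finset.sum_le_sum fun j _ => ?_)) 2
      rw [abs_mul]
      refine mul_le_mul_of_nonneg_left ((Finset.abs_sum_le_sum_abs _ _).trans
        (Finset.sum_le_sum fun l _ => ?_)) (abs_nonneg _)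
      rw [abs_mul]
      exact mul_le_mul_of_nonneg_right ((H.bd _ (hmem i) _ (xi + d) j l).2.1 k) (abs_nonneg _)
  set k0 : Fin N → ℝ := fun i => Cb * Phi t' (((i : ℕ) + 1 : ℝ) * h) (lam i) with hk0
  have hlow : ∀ xi, β * (q * (v ⬝ᵥ (M t (w (Fin.last N)) (xi + d) *ᵥ v))
        - q * (v ⬝ᵥ (M 0 0 (xi + d) *ᵥ v)))
      - β ^ 2 * h / 2 * ∑ i : Fin N, (q * (k0 i / (t' ^ 2 * (t' - t))) + (q : ℝ) ^ 2 *
          ∑ k, (v ⬝ᵥ (D (((i : ℕ) + 1 : ℝ) * h) (w i.castSucc) (xi + d) k *ᵥ v)) ^ 2)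
      ≤ Fq μ t t' q β h w x (xi + d) := by
    intro xi
    rw [hexp, hNh]
    refine sub_le_sub_left (mul_le_mul_of_nonneg_left (Finset.sum_le_sum fun i _ => ?_)
      (by positivity)) _
    refine (hQ _ _ _).trans (add_le_add ?_ le_rfl)
    exact mul_le_mul_of_nonneg_left (hcol i _) (Nat.cast_nonneg q)
  have iA : Integrable (fun xi => β * (q * (v ⬝ᵥ (M t (w (Fin.last N)) (xi + d) *ᵥ v))
      - q * (v ⬝ᵥ (M 0 0 (xi + d) *ᵥ v)))) (gam n) :=
    (((iM t ⟨ht.le, le_rfl⟩ _).const_mul _).sub ((iM 0 ⟨le_rfl, ht.le⟩ _).const_mul _)).const_mul β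
  have iB : Integrable (fun xi => β ^ 2 * h / 2 * ∑ i : Fin N,
      (q * (k0 i / (t' ^ 2 * (t' - t))) + (q : ℝ) ^ 2 *
        ∑ k, (v ⬝ᵥ (D (((i : ℕ) + 1 : ℝ) * h) (w i.castSucc) (xi + d) k *ᵥ v)) ^ 2)) (gam n) :=
    (integrable_finsetSum _ fun i _ => (integrable_const _).add ((iw i).const_mul _)).const_mul _
  have iF : Integrable (fun xi => Fq μ t t' q β h w x (xi + d)) (gam n) := by
    refine Chain.integrable_of_bdd (measurable_Fq H hh.le hNh.le ht.le (f := fun _ => w)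
      (g := fun xi => xi + d) (x := fun _ => x) measurable_const (measurable_add_const d)
      measurable_const) fun xi => (MartExp.quad_le_esum _ _).trans
        (mul_le_mul_of_nonneg_right (MartExp.esum_le fun a c =>
          MartExp.Xj_abs H ht.le hh.le hNh.le (xi + d) N le_rfl w a c)
          (Finset.sum_nonneg fun a _ => mul_self_nonneg _))
  refine le_trans ?_ (integral_mono (iA.sub iB) iF hlow)
  simp only [Pi.sub_apply]
  have eN : ∫ xi, v ⬝ᵥ (M t (w (Fin.last N)) (xi + d) *ᵥ v) ∂gam n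
      = ‖x‖⁻¹ ^ 2 * step μ t (t' - t) (w (Fin.last N)) (fun p => Bg μ t' p x) :=
    quad_avg hV hμ hb htt ⟨ht.le, le_rfl⟩ _
  have e0 : ∫ xi, v ⬝ᵥ (M 0 0 (xi + d) *ᵥ v) ∂gam n ≤ C0 := by
    refine (quad_avg hV hμ hb htt ⟨le_rfl, ht.le⟩ _).le.trans ?_
    rw [sub_zero]
    refine (mul_le_mul_of_nonneg_left (hI n μ inferInstance hb hS t' (ht.trans htt).le x)
      (sq_nonneg _)).trans ?_
    rw [inv_pow, inv_mul_le_iff₀ (by positivity)]
    linarith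
  rw [integral_sub iA iB, integral_const_mul, integral_sub ((iM t ⟨ht.le, le_rfl⟩ _).const_mul _)
    ((iM 0 ⟨le_rfl, ht.le⟩ _).const_mul _), integral_const_mul, integral_const_mul, eN,
    integral_const_mul,
    integral_finsetSum _ fun i _ => (integrable_const _).fun_add ((iw i).const_mul _)]
  have hsum : ∑ i : Fin N, ∫ xi, ((q : ℝ) * (k0 i / (t' ^ 2 * (t' - t))) + (q : ℝ) ^ 2 *
      ∑ k, (v ⬝ᵥ (D (((i : ℕ) + 1 : ℝ) * h) (w i.castSucc) (xi + d) k *ᵥ v)) ^ 2) ∂gam n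
      ≤ (q / (t' ^ 2 * (t' - t)) + (q : ℝ) ^ 2 / (t' ^ 2 * max (R ^ 2) (t' - t))) * ∑ i, k0 i := by
    rw [Finset.mul_sum]
    refine Finset.sum_le_sum fun i _ => ?_
    rw [integral_add (integrable_const _) ((iw i).const_mul _), integral_const, probReal_univ,
      one_smul, integral_const_mul]
    have := mul_le_mul_of_nonneg_left (hwq i) (sq_nonneg (q : ℝ))
    rw [hk0]
    refine (add_le_add le_rfl this).trans (le_of_eq ?_)
    ring
  have h1 := mul_le_mul_of_nonneg_left hsum (by positivity : 0 ≤ β ^ 2 * h / 2)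
  have h2 := mul_le_mul_of_nonneg_left (mul_le_mul_of_nonneg_left e0 (Nat.cast_nonneg q)) hβ
  have e3 : β ^ 2 * h / 2 * ((q / (t' ^ 2 * (t' - t)) + (q : ℝ) ^ 2 / (t' ^ 2 * max (R ^ 2) (t' - t))) * ∑ i, k0 i)
      = β ^ 2 / 2 * (Cb * (q / (t' ^ 2 * (t' - t)) + (q : ℝ) ^ 2 / (t' ^ 2 * max (R ^ 2) (t' - t)))
          * ∑ i : Fin N, h * Phi t' (((i : ℕ) + 1 : ℝ) * h) (lam i)) := by
    simp only [hk0, Finset.mul_sum]
    exact Finset.sum_congr rfl fun i _ => by ring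
  rw [e3] at h1
  linarith

/-- Pointwise lower bound used in `polyBreg_of`. -/
lemma event_bound2 (hKQ : KronQuad) (hV : SecantValue) {C0 : ℝ} (hI : BregInit2 C0) (hT : BregTransfer) {Cb : ℝ}
    (hB : ∀ (n : ℕ) (μ : Measure (Rn n)), IsProbabilityMeasure μ → IsSLC 0 μ →
      BddSupp μ → ∀ (t t' u lam : ℝ) (th : Rn n), 0 < u → u ≤ t → t < t' → t' ≤ 1 → 0 ≤ lam →
      (∀ w : Rn n, vr (tilt μ u th) (fun x => ⟪x, w⟫) ≤ lam * ‖w‖ ^ 2) →
      ∀ v : Rn n, ‖v‖ = 1 →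
        (∀ xi, ∑ j, ∑ k, (∑ l, v l * dsec μ t t' u th xi j l k) ^ 2
          ≤ Cb * (1 + lam * Real.sqrt (lam / u) * t' ^ 2) / (t' ^ 2 * (t' - t))) ∧
        ∀ R : ℝ, 0 < R →
          ∫ xi, ∑ k, (∑ j, ∑ l, v j * v l *
              dsec μ t t' u th (xi + (R / Real.sqrt ((t' - t) / 2)) • v) j l k) ^ 2
            ∂stdGaussian (Rn n)
          ≤ Cb * (1 + lam * Real.sqrt (lam / u) * t' ^ 2) / (t' ^ 2 * R ^ 2))
    (hCb : 0 ≤ Cb) [IsProbabilityMeasure μ] (hμ : IsSLC 0 μ) (hb : BddSupp μ) (hS : SubG μ)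
    (H : MartExp.Reg μ t t' K) (ht : 0 < t) (h2t : 2 * t ≤ t') (ht1 : t' ≤ 1) (hβ : 0 ≤ β) {N : ℕ}
    (hh : 0 < h) (hNh : (N : ℝ) * h = t) {R L : ℝ} (hR : 0 < R) (hL : 0 < L)
    (p : Rn n × (Fin N → Rn n)) (lam : Fin N → ℝ) (hl0 : ∀ i, 0 ≤ lam i)
    (hl : ∀ (i : Fin N) (v : Rn n), vr (tilt μ (((i : ℕ) + 1 : ℝ) * h) (Chain.pth h p i))
      (fun x => ⟪x, v⟫) ≤ lam i * ‖v‖ ^ 2)
    {x : Rn n} (hx1 : R ≤ ‖x‖) (hx2 : ‖x‖ ≤ 2 * R)
    (hx : R ^ 2 / (L * t) < Bg μ t (Chain.pth h p N) x) :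
    β * q * (1 / (4 * L * t') - C0) - 8 * (R ^ 2 / t')
      - β ^ 2 / 2 * (Cb * (q / (t' ^ 2 * (t' - t)) + (q : ℝ) ^ 2 / (t' ^ 2 * max (R ^ 2) (t' - t)))
          * ∑ i : Fin N, h * Phi t' (((i : ℕ) + 1 : ℝ) * h) (lam i))
    ≤ (∫ xi, Fq μ t t' q β h (Chain.pre h p N) x (xi + (Real.sqrt ((t' - t) / 2))⁻¹ • x) ∂gam n)
      - ‖(Real.sqrt ((t' - t) / 2))⁻¹ • x‖ ^ 2 / 2 := by
  have htt : t < t' := by linarith
  have ht' : 0 < t' := ht.trans htt
  have hpb := path_bound2 hKQ hV hI hB hCb hμ hb hS H ht htt ht1 hβ hh hNh hR (q := q)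
    (Chain.pre h p N) lam hl0 hl hx1
  simp only [Chain.pre, Fin.val_last] at hpb ⊢
  have htr := hT n μ inferInstance hμ hb t t' ht htt.le (Chain.pth h p N) x
  set S := step μ t (t' - t) (Chain.pth h p N) fun p => Bg μ t' p x
  have h1 : 1 / (4 * L * t') ≤ ‖x‖⁻¹ ^ 2 * S := by
    have hS' : R ^ 2 / (L * t') ≤ S := by
      have := hx.le.trans htr
      rw [div_le_iff₀ (by positivity)] at this ⊢
      calc R ^ 2 ≤ t' / t * S * (L * t) := this
        _ = S * (L * t') := by field_simp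
    calc 1 / (4 * L * t') = (2 * R)⁻¹ ^ 2 * (R ^ 2 / (L * t')) := by field_simp; ring
      _ ≤ ‖x‖⁻¹ ^ 2 * S := by
          refine mul_le_mul (pow_le_pow_left₀ (by positivity) ?_ 2) hS' (by positivity) (sq_nonneg _)
          exact inv_anti₀ (lt_of_lt_of_le (by linarith) hx1) hx2
  have h2 : ‖(Real.sqrt ((t' - t) / 2))⁻¹ • x‖ ^ 2 / 2 ≤ 8 * (R ^ 2 / t') := by
    rw [norm_smul, mul_pow, Real.norm_eq_abs, sq_abs, inv_pow, Real.sq_sqrt (by linarith),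
      inv_mul_eq_div, div_div, div_le_iff₀ (by linarith)]
    calc ‖x‖ ^ 2 ≤ (2 * R) ^ 2 := pow_le_pow_left₀ (norm_nonneg _) hx2 2
      _ = 8 * (R ^ 2 / t') * (t' / 2) := by field_simp; ring
      _ ≤ _ := mul_le_mul_of_nonneg_left (by linarith) (by positivity)
  have h3 := mul_le_mul_of_nonneg_left (sub_le_sub_right h1 C0)
    (mul_nonneg hβ (Nat.cast_nonneg q))
  linarith

/-- The main inequality, on a fine grid. -/
lemma main_ineq2 (hA : MatStep) (hE : ExpLeTrace) (hKQ : KronQuad) (hSm : SecantMart)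
    (hSr : SecantReg) (hV : SecantValue) (hG : ObsStep) (hT : BregTransfer) {C0 : ℝ} (hI : BregInit2 C0) {Cb : ℝ}
    (hBd : ∀ (n : ℕ) (μ : Measure (Rn n)), IsProbabilityMeasure μ → IsSLC 0 μ →
      BddSupp μ → ∀ (t t' u lam : ℝ) (th : Rn n), 0 < u → u ≤ t → t < t' → t' ≤ 1 → 0 ≤ lam →
      (∀ w : Rn n, vr (tilt μ u th) (fun x => ⟪x, w⟫) ≤ lam * ‖w‖ ^ 2) →
      ∀ v : Rn n, ‖v‖ = 1 →
        (∀ xi, ∑ j, ∑ k, (∑ l, v l * dsec μ t t' u th xi j l k) ^ 2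
          ≤ Cb * (1 + lam * Real.sqrt (lam / u) * t' ^ 2) / (t' ^ 2 * (t' - t))) ∧
        ∀ R : ℝ, 0 < R →
          ∫ xi, ∑ k, (∑ j, ∑ l, v j * v l *
              dsec μ t t' u th (xi + (R / Real.sqrt ((t' - t) / 2)) • v) j l k) ^ 2
            ∂stdGaussian (Rn n)
          ≤ Cb * (1 + lam * Real.sqrt (lam / u) * t' ^ 2) / (t' ^ 2 * R ^ 2))
    (hCb : 0 ≤ Cb) [IsProbabilityMeasure μ] (hμ : IsSLC 0 μ) (hb : BddSupp μ) (hS : SubG μ)
    (hn : 1 ≤ n) (ht : 0 < t) (h2t : 2 * t ≤ t') (ht1 : t' ≤ 1) (hβ : 0 ≤ β) {R L : ℝ} (hR : 0 < R)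
    (hL : 0 < L) {E : Set (Rn n)} (hEm : MeasurableSet E) {sel : Rn n → Rn n} (hselm : Measurable sel)
    (hselR : ∀ th, R ≤ ‖sel th‖ ∧ ‖sel th‖ ≤ 2 * R)
    (hsel : ∀ th ∈ E, R ^ 2 / (L * t) < Bg μ t th (sel th)) (hP : 0 < (obs μ t).real E)
    {c D : ℝ} (hdr : ∀ Rs : ℝ, (∀ᵐ x ∂μ, ‖x‖ ≤ Rs) → ∀ N : ℕ, 0 < N → t / N * Rs ^ 2 ≤ 1 →
      ∃ lam : ℕ → Rn n → ℝ,
        (∀ i, Measurable (lam i) ∧ ∃ B, ∀ th, 0 ≤ lam i th ∧ lam i th ≤ B) ∧
        (∀ (p : Rn n × (Fin N → Rn n)) (i : Fin N) (w : Rn n),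
          vr (tilt μ (((i : ℕ) + 1 : ℝ) * (t / N)) (Chain.pth (t / N) p i)) (fun x => ⟪x, w⟫)
            ≤ lam i (Chain.pth (t / N) p i) * ‖w‖ ^ 2) ∧
        ∫ p, E.indicator (fun _ => (1 : ℝ)) (Chain.pth (t / N) p N)
            * ∑ i : Fin N, t / N * Phi t' (((i : ℕ) + 1 : ℝ) * (t / N))
                (lam i (Chain.pth (t / N) p i)) ∂Chain.law μ N
          ≤ c * ((obs μ t).real E * D)) :
    β * q * (1 / (4 * L * t') - C0) - 8 * (R ^ 2 / t')
        - β ^ 2 / 2 * (Cb * (q / (t' ^ 2 * (t' - t)) + (q : ℝ) ^ 2 / (t' ^ 2 * max (R ^ 2) (t' - t)))) * (c * D)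
      ≤ Real.log ((n : ℝ) ^ q * Real.exp 1 / (obs μ t).real E) := by
  set P := (obs μ t).real E with hPdef
  have htt : t < t' := by linarith
  obtain ⟨hcont, hsym, K, hK0, hK⟩ := hSr n μ inferInstance hμ hb t t' ht.le htt
  have H : MartExp.Reg μ t t' K := ⟨hcont, hsym, hK0, hK⟩
  obtain ⟨Km, hKm0, hKm⟩ := MartExp.expMart hA hSm hSr hμ hb ht htt q β
  obtain ⟨Rs, hRs⟩ := id hb
  obtain ⟨N, hN⟩ := exists_nat_gt (max 1 (max (t * Rs ^ 2) (max t ((Km * t) ^ 2 * t))))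
  simp only [max_lt_iff] at hN
  obtain ⟨hN1, hN2, hN3, hN4⟩ := hN
  have hNpos : 0 < N := by exact_mod_cast lt_trans zero_lt_one hN1
  have hNr : (0 : ℝ) < N := by exact_mod_cast hNpos
  set h := t / N with hh'
  have hh : 0 < h := div_pos ht hNr
  have hNh : (N : ℝ) * h = t := by rw [hh']; field_simp
  have hh1 : h ≤ 1 := by rw [hh', div_le_one hNr]; linarith
  have hhR : t / N * Rs ^ 2 ≤ 1 := by rw [div_mul_eq_mul_div, div_le_one hNr]; linarith
  have herr : Km * t * Real.sqrt h ≤ 1 := by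
    have h1 : (Km * t * Real.sqrt h) ^ 2 ≤ 1 := by
      rw [mul_pow, Real.sq_sqrt hh.le, hh', ← mul_div_assoc, div_le_one hNr]; linarith
    have h2 : 0 ≤ Km * t * Real.sqrt h := by positivity
    nlinarith
  obtain ⟨lam, hlam, hlamb, hdrift⟩ := hdr Rs hRs N hNpos hhR
  set k : ℝ := β ^ 2 / 2 * (Cb * (q / (t' ^ 2 * (t' - t)) + (q : ℝ) ^ 2 / (t' ^ 2 * max (R ^ 2) (t' - t)))) with hk
  have hk0 : 0 ≤ k := by
    have : 0 < t' - t := by linarith
    rw [hk]; positivity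
  set ind : Rn n → ℝ := E.indicator fun _ => (1 : ℝ) with hind
  have hind0 : ∀ y, 0 ≤ ind y ∧ ind y ≤ 1 := by
    intro y
    by_cases hy : y ∈ E <;> simp [hind, hy]
  have hindi : Integrable (fun p : Rn n × (Fin N → Rn n) => ind (Chain.pth h p N)) (Chain.law μ N) :=
    Chain.integrable_of_bdd ((measurable_const.indicator hEm).comp (Chain.measurable_pth N)) (C := 1)
      fun p => by rw [abs_of_nonneg (hind0 _).1]; exact (hind0 _).2
  have eP : ∫ p, ind (Chain.pth h p N) ∂Chain.law μ N = P := by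
    rw [integral_pth hG hb hh N le_rfl ind (measurable_const.indicator hEm) 1
      (fun y => by rw [abs_of_nonneg (hind0 y).1]; exact (hind0 y).2), hind, obs_real_indicator _ hEm,
      hNh]
  have hDi := integrable_drift (μ := μ) (t' := t') (N := N) hh hEm hlam
  set a := β * q * (1 / (4 * L * t') - C0) - 8 * (R ^ 2 / t') with ha
  have hloi : Integrable (fun p : Rn n × (Fin N → Rn n) => a * ind (Chain.pth h p N)
      - k * (ind (Chain.pth h p N) * ∑ i : Fin N, h * Phi t' (((i : ℕ) + 1 : ℝ) * h)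
          (lam i (Chain.pth h p i)))) (Chain.law μ N) := (hindi.const_mul a).sub (hDi.const_mul k)
  have hnr : (1 : ℝ) ≤ n := by exact_mod_cast hn
  have main := grid_bound hE H ht hh hNh (q := q) (β := β) hEm hselm (by linarith : 0 < R)
    (Real.sqrt_pos.2 (by linarith : 0 < (t' - t) / 2)) hselR
    (A := (n : ℝ) ^ q * Real.exp 1) (by positivity)
    (fun xi => (hKm N hNpos hh1 xi).trans (mul_le_mul_of_nonneg_left (Real.exp_le_exp.2 herr)
      (by positivity)))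
    (by rw [← hind, eP]; exact hP) hloi (fun p => by
      rw [← hind]
      by_cases hp : Chain.pth h p N ∈ E
      · have e : ind (Chain.pth h p N) = 1 := by simp [hind, hp]
        have hev := event_bound2 hKQ hV hI hT hBd hCb hμ hb hS H ht h2t ht1 hβ hh hNh hR hL (q := q) p
          (fun i => lam i (Chain.pth h p i))
          (fun i => by obtain ⟨-, Bl, hBl⟩ := hlam i; exact (hBl _).1) (fun i v => hlamb p i v)
          (hselR _).1 (hselR _).2 (hsel _ hp)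
        rw [e, one_mul, one_mul, mul_one, hk, ha]
        linarith
      · have e : ind (Chain.pth h p N) = 0 := by simp [hind, hp]
        rw [e]
        simp)
  rw [← hind, eP, integral_sub (hindi.const_mul a) (hDi.const_mul k), integral_const_mul,
    integral_const_mul, eP] at main
  have h1 := mul_le_mul_of_nonneg_left hdrift hk0
  have hmain : P * (a - k * (c * D)) ≤ P * Real.log ((n : ℝ) ^ q * Real.exp 1 / P) := by
    linarith
  exact le_of_mul_le_mul_left hmain hP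

/-- Bound on the constant in front of the drift. -/
lemma k_bound2 {Cb Cd C R X qr : ℝ} (hCb : 0 ≤ Cb) (hCd : 0 ≤ Cd) (hC : 3 * Cb * Cd ≤ C)
    (ht : 0 < t) (h2t : 2 * t ≤ t') (hX : 1 ≤ X) (hXR : X ≤ max 1 (R ^ 2 / t')) (hq0 : 0 ≤ qr)
    (hq : qr ≤ 2 * X) :
    β ^ 2 / 2 * (Cb * (qr / (t' ^ 2 * (t' - t)) + qr ^ 2 / (t' ^ 2 * max (R ^ 2) (t' - t))))
        * (Cd * (t * 2))
      ≤ 4 * C * β ^ 2 * t * X / t' ^ 3 := by
  have ht' : 0 < t' := by linarith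
  have htt : 0 < t' - t := by linarith
  set w := max (R ^ 2) (t' - t) with hw
  have hw0 : 0 < w := lt_max_of_lt_right htt
  have hwX : X * (t' / 2) ≤ w := by
    rcases le_max_iff.1 hXR with h1 | h1
    · calc X * (t' / 2) ≤ 1 * (t' / 2) := by gcongr
        _ ≤ t' - t := by linarith
        _ ≤ w := le_max_right _ _
    · calc X * (t' / 2) ≤ R ^ 2 / t' * (t' / 2) := by gcongr
        _ = R ^ 2 / 2 := by field_simp
        _ ≤ R ^ 2 := half_le_self (sq_nonneg R)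
        _ ≤ w := le_max_left _ _
  have e1 : qr / (t' ^ 2 * (t' - t)) ≤ 4 * X / t' ^ 3 := by
    calc qr / (t' ^ 2 * (t' - t)) ≤ 2 * X / (t' ^ 2 * (t' / 2)) := by
          gcongr; linarith
      _ = _ := by field_simp; ring
  have e2 : qr ^ 2 / (t' ^ 2 * w) ≤ 8 * X / t' ^ 3 := by
    calc qr ^ 2 / (t' ^ 2 * w) ≤ (2 * X) ^ 2 / (t' ^ 2 * (X * (t' / 2))) := by
          gcongr
      _ = _ := by field_simp; ring
  calc β ^ 2 / 2 * (Cb * (qr / (t' ^ 2 * (t' - t)) + qr ^ 2 / (t' ^ 2 * w))) * (Cd * (t * 2))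
      ≤ β ^ 2 / 2 * (Cb * (4 * X / t' ^ 3 + 8 * X / t' ^ 3)) * (Cd * (t * 2)) := by gcongr
    _ = 4 * (3 * Cb * Cd) * β ^ 2 * t * X / t' ^ 3 := by ring
    _ ≤ _ := by gcongr

/-- The contradiction, for `t' = √t`. -/
lemma algebra2 {C L X A S r qr β a k : ℝ} (hC : 1 ≤ C) (hL : 1 ≤ L) (hX : 1 ≤ X) (hr : 0 < r)
    (hA : A = 400 * C) (hS0 : 0 ≤ S) (hS : S ^ 2 = L * r) (hβ : β = A * S / (128 * C))
    (hq : X ≤ qr) (ha : A * S / (8 * r) ≤ a) (hk : k ≤ 4 * C * β ^ 2 * X / r)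
    (h : β * qr * a - 8 * X - k ≤ 2 * X * L + 1 + 60 * L) : False := by
  have hA0 : 0 ≤ A := by rw [hA]; linarith
  have hβ0 : 0 ≤ β := by rw [hβ]; positivity
  have h1 : β * X * (A * S / (8 * r)) ≤ β * qr * a :=
    mul_le_mul (mul_le_mul_of_nonneg_left hq hβ0) ha (by positivity)
      (mul_nonneg hβ0 (by linarith))
  have e1 : β * X * (A * S / (8 * r)) = X * L * C * (160000 / 1024) := by
    calc β * X * (A * S / (8 * r)) = A ^ 2 * S ^ 2 * X / (1024 * C * r) := by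
          rw [hβ]; field_simp; ring
      _ = _ := by rw [hS, hA]; field_simp; ring
  have e2 : 4 * C * β ^ 2 * X / r = X * L * C * (160000 / 4096) := by
    calc 4 * C * β ^ 2 * X / r = A ^ 2 * S ^ 2 * X / (4096 * C * r) := by
          rw [hβ]; field_simp; ring
      _ = _ := by rw [hS, hA]; field_simp; ring
  rw [e1] at h1
  rw [e2] at hk
  have hL' : L ≤ X * L := le_mul_of_one_le_left (by linarith) hX
  have hX' : X ≤ X * L := le_mul_of_one_le_right (by linarith) hL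
  have hC' : X * L ≤ X * L * C := le_mul_of_one_le_right (by nlinarith) hC
  linarith

/-- The contradiction, assembled. -/
lemma finish2 {C L R P Cb Cd C0 A S r β t : ℝ} {n q : ℕ} (hn : 1 ≤ n) (hL : lgn n = L)
    (hL1 : 1 ≤ L) (hC : 1 ≤ C) (hCb : 0 ≤ Cb) (hCd : 0 ≤ Cd) (hCC : 3 * Cb * Cd ≤ C) (hC0 : C0 ≤ C)
    (hA : A = 400 * C) (ht : 0 < t) (hr : 0 < r) (hrr : r ^ 2 = t) (hr2 : r ≤ 1 / 2)
    (h2t : 2 * t ≤ r) (hS0 : 0 < S) (hS2 : S ^ 2 = L * r) (hβ : β = A * S / (128 * C)) (hR : 0 < R)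
    (hq : q = ⌈R ^ 2 / r⌉₊) (hP : (((n : ℝ) + 2) ^ 30)⁻¹ < P)
    (main : β * q * (1 / (4 * (A * S)⁻¹ * r) - C0) - 8 * (R ^ 2 / r)
        - β ^ 2 / 2 * (Cb * (q / (r ^ 2 * (r - t)) + (q : ℝ) ^ 2 / (r ^ 2 * max (R ^ 2) (r - t))))
          * (Cd * (t * 2))
      ≤ Real.log ((n : ℝ) ^ q * Real.exp 1 / P)) : False := by
  obtain ⟨X, hXdef⟩ : ∃ X, X = max 1 (R ^ 2 / r) := ⟨_, rfl⟩
  have hX : 1 ≤ X := hXdef ▸ le_max_left _ _
  have hXR : R ^ 2 / r ≤ X := hXdef ▸ le_max_right _ _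
  have h0 : 0 < R ^ 2 / r := div_pos (pow_pos hR 2) hr
  have hq1 : X ≤ q := by
    rw [hXdef, hq]
    exact max_le (Nat.one_le_cast.2 (Nat.one_le_iff_ne_zero.2
      (Nat.ceil_pos.2 h0).ne')) (Nat.le_ceil _)
  have hq2 : (q : ℝ) ≤ 2 * X :=
    hq ▸ (Nat.ceil_lt_add_one h0.le).le.trans (by linarith)
  have hk := k_bound2 (β := β) (t := t) (t' := r) (R := R) hCb hCd hCC ht h2t hX hXdef.le
    (Nat.cast_nonneg q) hq2
  have hA0 : 0 < A := by linarith
  have hSr : r ≤ S := by nlinarith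
  have ha : A * S / (8 * r) ≤ 1 / (4 * (A * S)⁻¹ * r) - C0 := by
    have e : 1 / (4 * (A * S)⁻¹ * r) = A * S / (8 * r) + A * S / (8 * r) := by
      field_simp; norm_num
    have h4 : C0 ≤ A * S / (8 * r) := by
      refine hC0.trans ?_
      rw [le_div_iff₀ (by positivity)]
      nlinarith
    linarith
  have e : 4 * C * β ^ 2 * t * X / r ^ 3 = 4 * C * β ^ 2 * X / r := by
    rw [← hrr]
    field_simp
  refine algebra2 hC hL1 hX hr hA hS0.le hS2 hβ hq1 ha (hk.trans_eq e) (le_trans ?_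
    (main.trans (log_le hn hL hP (by linarith) hq2)))
  linarith

end Main

open Main in
/-- `PolyBreg2`. -/
theorem polyBreg2_of (hA : MatStep) (hE : ExpLeTrace) (hKQ : KronQuad) (hSm : SecantMart)
    (hSr : SecantReg) (hV : SecantValue) (hB : SecantBounds) (hG : ObsStep) (hBB : BgBasic)
    (hT : BregTransfer) {C0 : ℝ} (hI : BregInit2 C0) (hSp : SpectralTail) (hLin : LinVarSLC) :
    PolyBreg2 := by
  obtain ⟨Cb, hCb, hBd⟩ := hB
  obtain ⟨cd, Cd, hcd, hCd, hdr⟩ := drift hSp hLin hG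
  set C := max (max (3 * Cb * Cd) C0) 1 with hC
  have hC1 : 1 ≤ C := le_max_right _ _
  obtain ⟨A, hAdef⟩ : ∃ A, A = 400 * C := ⟨_, rfl⟩
  have hA0 : 0 < A := by linarith
  refine ⟨min cd (1 / 4), A, lt_min hcd (by norm_num), hA0, ?_⟩
  intro n μ hn hμ hslc hb hS t R ht htc hR hRle
  obtain ⟨L, hLdef⟩ : ∃ L, L = lgn n := ⟨_, rfl⟩
  have hL : 1 ≤ L := hLdef ▸ one_le_lgn n
  have hL2 : (1 : ℝ) ≤ lgn n ^ 2 := one_le_pow₀ (one_le_lgn n)
  have htc1 : t ≤ cd / lgn n ^ 2 :=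
    htc.trans (div_le_div_of_nonneg_right (min_le_left _ _) (by linarith))
  have ht4 : t ≤ 1 / 4 :=
    (htc.trans (div_le_div_of_nonneg_right (min_le_right _ _) (by linarith))).trans
      (div_le_self (by norm_num) hL2)
  obtain ⟨r, hrdef⟩ : ∃ r, r = Real.sqrt t := ⟨_, rfl⟩
  have hr : 0 < r := hrdef ▸ Real.sqrt_pos.2 ht
  have hrr : r ^ 2 = t := hrdef ▸ Real.sq_sqrt ht.le
  have hr2 : r ≤ 1 / 2 := by nlinarith
  have h2t : 2 * t ≤ r := by nlinarith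
  have htt : t < r := by linarith
  obtain ⟨S, hSdef⟩ : ∃ S, S = Real.sqrt (L * r) := ⟨_, rfl⟩
  have hS0 : 0 < S := hSdef ▸ Real.sqrt_pos.2 (by positivity)
  have hS2 : S ^ 2 = L * r := hSdef ▸ Real.sq_sqrt (by positivity)
  have hsq : r ^ 2 / Real.sqrt t ≤ 1 := by
    rw [← hrdef, div_le_one hr]
    nlinarith
  obtain ⟨β, hβ⟩ : ∃ x, x = A * S / (128 * C) := ⟨_, rfl⟩
  have hβ0 : 0 ≤ β := by rw [hβ]; positivity
  obtain ⟨q, hq⟩ : ∃ m, m = ⌈R ^ 2 / r⌉₊ := ⟨_, rfl⟩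
  have ethr : R ^ 2 / ((A * S)⁻¹ * t) = A * bscale n t * R ^ 2 := by
    rw [bscale, ← hrdef, ← hLdef, ← hSdef]
    field_simp
  obtain ⟨hEm, sel, hselm, hselR, hsel⟩ := select hn (hBB n μ hμ hb t).1 hR
    (thr := A * bscale n t * R ^ 2)
  set E := {th | ∃ d : Rn n, R ≤ ‖d‖ ∧ ‖d‖ ≤ 2 * R ∧ A * bscale n t * R ^ 2 < Bg μ t th d}
  have := obs_prob (μ := μ) t
  rw [← ofReal_measureReal (measure_ne_top (obs μ t) E)]
  refine ENNReal.ofReal_le_ofReal (le_of_not_gt fun hgt => ?_)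
  have hPp : 0 < (obs μ t).real E := lt_trans (by positivity) hgt
  have main := main_ineq2 hA hE hKQ hSm hSr hV hG hT hI hBd hCb.le hslc hb hS hn ht h2t
    (by linarith) hβ0 hR (L := (A * S)⁻¹) (by positivity) (q := q) hEm hselm hselR
    (fun th hth => by rw [ethr]; exact hsel th hth) hPp (c := Cd) (D := t * 2)
    (fun Rs hRs N hN hhR => by
      obtain ⟨lam, h1, h2, h3⟩ := hdr n μ hμ hslc hb hS t r ht htc1 htt (by linarith) Rs hRs N hN
        hhR E hEm hgt.le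
      refine ⟨lam, h1, h2, h3.trans ?_⟩
      have := mul_le_mul_of_nonneg_left hsq (mul_nonneg hPp.le ht.le)
      refine mul_le_mul_of_nonneg_left ?_ hCd.le
      linarith)
  exact finish2 hn hLdef.symm hL hC1 hCb.le hCd.le ((le_max_left _ _).trans (le_max_left _ _))
    ((le_max_right _ _).trans (le_max_left _ _)) hAdef ht hr hrr hr2 h2t hS0
    hS2 hβ hR hq hgt main

end Vale.Agent.P245.Poly
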