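import Vale.Agent.P245.Poly.Final
import Vale.Agent.P245.Poly.Two.Defs

/-!
# P245, module H for the exponent two
-/

namespace Vale.Agent.P245.Poly

open MeasureTheory ProbabilityTheory Filter Topology Module
open scoped RealInnerProductSpace ENNReal NNReal

variable {n : ℕ}

/-- The compactly supported case from concentration and Milman's transfer. -/
theorem polyBdd2 (hConc : PolyConc2) (hL : LsiOfConc) : PolyBdd2 := by
  obtain ⟨C, hC1, hC⟩ := hConc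
  obtain ⟨C', hC', h⟩ := hL C (by linarith)
  refine ⟨C' * C, mul_pos hC' (by linarith), fun n μ hn hμ hslc hbdd hS f hf => ?_⟩
  refine (h n (C * lgn n ^ 2) μ (one_le_mul_of_one_le_of_one_le hC1 (one_le_pow₀ (one_le_lgn n)))
    hμ hslc hbdd (hC n μ hn hμ hslc hbdd hS) f hf).trans_eq ?_
  ring

/-- The general statement, from the compactly supported case. -/
theorem polyGeneral2 (hB : PolyBdd2) :
    ∃ C : ℝ, 0 < C ∧ ∀ n : ℕ, 1 ≤ n →
      ∀ ρ : EuclideanSpace ℝ (Fin n) → ℝ, Measurable ρ → (∀ x, 0 ≤ ρ x) →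
        ConcaveOn ℝ {x | 0 < ρ x} (fun x => Real.log (ρ x)) →
      ∀ μ : Measure (EuclideanSpace ℝ (Fin n)),
        μ = volume.withDensity (fun x => ENNReal.ofReal (ρ x)) → IsProbabilityMeasure μ →
      ∀ a : ℝ, 0 < a →
        (∀ v : EuclideanSpace ℝ (Fin n), ‖v‖ = 1 →
          ∫⁻ x, ENNReal.ofReal (Real.exp (⟪x, v⟫ ^ 2 / a ^ 2)) ∂μ ≤ 2) →
      ∀ f : EuclideanSpace ℝ (Fin n) → ℝ, ContDiff ℝ (⊤ : ℕ∞) f → HasCompactSupport f →
        ∫ x, f x ^ 2 * Real.log (f x ^ 2) ∂μ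
            - (∫ x, f x ^ 2 ∂μ) * Real.log (∫ x, f x ^ 2 ∂μ)
          ≤ C * (1 + Real.log ((n : ℝ) + 1)) ^ 2 * a ^ 2 * ∫ x, ‖fderiv ℝ f x‖ ^ 2 ∂μ := by
  obtain ⟨C, hC, h⟩ := hB
  refine ⟨C, hC, fun n hn ρ hm h0 hc μ hμ hp a ha hS f hf hfs => ?_⟩
  subst hμ
  exact scaled_of_bdd (fun ν => h n ν hn) ρ hm h0 hc hp a ha hS f (hf.of_le (by decide)) hfs

end Vale.Agent.P245.Poly
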