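import Vale.Agent.P245.Poly.Breg
import Vale.Agent.P245.Poly.Two.Defs

/-!
# P245: the initial value is quadratic at every scale
-/

namespace Vale.Agent.P245.Poly

open MeasureTheory ProbabilityTheory Filter Topology M2
open scoped RealInnerProductSpace

variable {n : ℕ} {μ : Measure (Rn n)} [IsProbabilityMeasure μ]

/-- The initial value is at most the cumulant. -/
lemma init_le {u : ℝ} (hu : 0 ≤ u) (hb : BddSupp μ) (d : Rn n) :
    step μ 0 u 0 (fun q => Bg μ u q d) ≤ Real.log (∫ x, Real.exp ⟪d, x⟫ ∂μ) - ∫ x, lin d x ∂μ := by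
  have hμ : IsProbabilityMeasure μ := inferInstance
  have := obs_prob (μ := μ) u
  set m := ∫ x, Real.exp ⟪d, x⟫ ∂μ with hmdef
  set a := ∫ x, lin d x ∂μ with hadef
  obtain ⟨hNb, -⟩ := bg_gen hb (μ := μ) d
  obtain ⟨D, hD⟩ := hNb.b0
  have hmeas := (hNb.continuous_space u).measurable
  have hstep : step μ 0 u 0 (fun q => Bg μ u q d) = ∫ th, Bg μ u th d ∂(obs μ u) := by
    have h := obsStep n μ hμ hb 0 u le_rfl hu (fun q => Bg μ u q d) hmeas ⟨D, hD u⟩
    rwa [obs_zero, integral_dirac, zero_add] at h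
  rw [hstep]
  have hE := nice_ex hb (good_exp hb d)
  have hA := nice_ex hb (good_lin hb d)
  obtain ⟨E, hE0⟩ := hE.b0
  obtain ⟨A, hA0⟩ := hA.b0
  have iB : Integrable (fun th => Bg μ u th d) (obs μ u) :=
    Integrable.of_bound hmeas.aestronglyMeasurable D (ae_of_all _ fun th => hD u th)
  have iE : Integrable (fun th => ex μ u th fun x => Real.exp ⟪d, x⟫) (obs μ u) :=
    Integrable.of_bound (hE.continuous_space u).aestronglyMeasurable E
      (ae_of_all _ fun th => hE0 u th)
  have iA : Integrable (fun th => ex μ u th (lin d)) (obs μ u) :=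
    Integrable.of_bound (hA.continuous_space u).aestronglyMeasurable A
      (ae_of_all _ fun th => hA0 u th)
  have hmean : ∀ g : Rn n → ℝ, Continuous g →
      ∫ th, ex μ u th g ∂(obs μ u) = ∫ x, g x ∂μ := by
    intro g hg
    obtain ⟨C, hC⟩ := (Good.of_continuous hb hg).2
    rw [mix hb hu (H := fun _ x => g x) (hg.measurable.comp measurable_snd) (C := C)
      (hC.mono fun x hx _ => by simpa using hx), integral_fun_fst]
    simp
  have hm : Real.exp a ≤ m := by simpa only [ex_zero] using exp_ex_le hb 0 0 d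
  have hm0 : 0 < m := (Real.exp_pos _).trans_le hm
  have hneg : Real.exp (-a) ≤ ∫ x, Real.exp ⟪-d, x⟫ ∂μ := by
    have h := exp_ex_le hb 0 0 (-d)
    simpa only [ex_zero, lin, inner_neg_left, integral_neg] using h
  have hle : ∫ th, Bg μ u th d ∂(obs μ u) ≤ Real.log m - a := by
    refine (integral_mono iB (g := fun th => (Real.log m + (m⁻¹ *
      (ex μ u th fun x => Real.exp ⟪d, x⟫) + -1)) - ex μ u th (lin d))
      (((integrable_const _).add ((iE.const_mul _).add (integrable_const _))).sub iA)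
      fun th => ?_).trans ?_
    · show Bg μ u th d ≤ _
      rw [bg_eq hb]
      have hp := (Real.exp_pos _).trans_le (exp_ex_le hb u th d)
      have := Real.log_le_sub_one_of_pos (mul_pos (inv_pos.2 hm0) hp)
      rw [Real.log_mul (inv_pos.2 hm0).ne' hp.ne', Real.log_inv] at this
      linarith
    · rw [integral_sub (by exact (integrable_const _).add ((iE.const_mul _).add (integrable_const _))) iA,
        integral_add (integrable_const _) (by exact (iE.const_mul _).add (integrable_const _)),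
        integral_add (iE.const_mul _) (integrable_const _), integral_const_mul,
        hmean _ (by fun_prop), hmean _ (by fun_prop), inv_mul_cancel₀ hm0.ne']
      simp [hadef]
  exact hle

/-- `exp z` is quadratically close to its linearisation. -/
lemma exp_lin_le (z : ℝ) : Real.exp z ≤ 1 + z + 2 * (z ^ 2 * Real.exp |z|) := by
  have he : 1 ≤ Real.exp |z| := Real.one_le_exp (abs_nonneg z)
  have hz : z ^ 2 ≤ z ^ 2 * Real.exp |z| := le_mul_of_one_le_right (sq_nonneg z) he
  rcases le_or_gt |z| 1 with h | h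
  · have := (abs_le.1 (Real.abs_exp_sub_one_sub_id_le h)).2
    have := sq_nonneg z
    linarith
  · have h2 : 1 ≤ z ^ 2 := by nlinarith [sq_abs z]
    have h3 : Real.exp |z| ≤ z ^ 2 * Real.exp |z| := le_mul_of_one_le_left (Real.exp_pos _).le h2
    have h4 : Real.exp z ≤ Real.exp |z| := Real.exp_le_exp.2 (le_abs_self z)
    have h5 := Real.add_one_le_exp |z|
    have := neg_abs_le z
    linarith

/-- The initial value is quadratic at every scale. -/
theorem bregInit2 : BregInit2 (16 * Real.exp 5) := by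
  intro n μ hμ hb hS u hu d
  have h5 : (1 : ℝ) ≤ Real.exp 5 := Real.one_le_exp (by norm_num)
  rcases le_or_gt 1 ‖d‖ with hd1 | hd1
  · refine (bregInit n μ hμ hb hS u hu d).trans ?_
    have h1 : 1 ≤ ‖d‖ ^ 2 := one_le_pow₀ hd1
    nlinarith [mul_le_mul_of_nonneg_right h5 (sq_nonneg ‖d‖)]
  refine (init_le hu hb d).trans ?_
  rcases eq_or_ne d 0 with rfl | hd
  · simp [lin]
  set r := ‖d‖ with hr
  have hr0 : 0 < r := norm_pos_iff.2 hd
  set e : Rn n := r⁻¹ • d with he
  have hen : ‖e‖ = 1 := by rw [he, norm_smul, norm_inv, norm_norm, inv_mul_cancel₀ hr0.ne']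
  have hde : ∀ x, ⟪d, x⟫ = r * ⟪x, e⟫ := fun x => by
    rw [he, real_inner_smul_right, real_inner_comm x d]
    field_simp
  have hie : Integrable (fun x => Real.exp (⟪x, e⟫ ^ 2)) μ := M5.integrable_bdd hb (by fun_prop)
  have h4 : ∫ x, Real.exp (⟪x, e⟫ ^ 2) ∂μ ≤ 4 := by
    have h := hS e hen
    rw [← ofReal_integral_eq_lintegral_ofReal hie (ae_of_all _ fun x => (Real.exp_pos _).le),
      show (4 : ENNReal) = ENNReal.ofReal 4 by simp] at h
    exact (ENNReal.ofReal_le_ofReal_iff (by norm_num)).1 h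
  set m := ∫ x, ⟪x, e⟫ ∂μ with hm
  have him : Integrable (fun x => ⟪x, e⟫) μ := M5.integrable_bdd hb (by fun_prop)
  have hy : ∀ y : ℝ, 2 * y ≤ Real.exp (y ^ 2) := fun y => by
    have := Real.add_one_le_exp (y ^ 2)
    linarith [two_mul_le_add_sq y 1]
  have hmb : 2 * |m| ≤ 4 := by
    have h1 : 2 * |m| ≤ 2 * ∫ x, |⟪x, e⟫| ∂μ :=
      mul_le_mul_of_nonneg_left abs_integral_le_integral_abs zero_le_two
    rw [← integral_const_mul] at h1
    refine h1.trans ((integral_mono (him.abs.const_mul 2) hie fun x => ?_).trans h4)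
    have := hy |⟪x, e⟫|
    rwa [sq_abs] at this
  have hla : ∫ x, lin d x ∂μ = r * m := by
    rw [hm, ← integral_const_mul]
    exact integral_congr_ae (ae_of_all _ fun x => hde x)
  set z : Rn n → ℝ := fun x => r * (⟪x, e⟫ - m) with hz
  have hmz : ∫ x, Real.exp (z x) ∂μ = (∫ x, Real.exp ⟪d, x⟫ ∂μ) / Real.exp (r * m) := by
    rw [← integral_div]
    refine integral_congr_ae (ae_of_all _ fun x => ?_)
    simp only [hz]
    rw [← Real.exp_sub, hde]
    ring_nf
  have hpt : ∀ x, Real.exp (z x) ≤ 1 + z x + 4 * Real.exp 5 * r ^ 2 * Real.exp (⟪x, e⟫ ^ 2) := by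
    intro x
    refine (exp_lin_le _).trans (add_le_add le_rfl ?_)
    set y := ⟪x, e⟫ - m with hy'
    have h1 : |z x| ≤ |y| := by
      rw [hz]; simp only [abs_mul, abs_of_pos hr0]
      exact mul_le_of_le_one_left (abs_nonneg _) hd1.le
    have h2 : z x ^ 2 = r ^ 2 * y ^ 2 := by simp only [hz, mul_pow]; rfl
    have h3 : y ^ 2 ≤ 2 * Real.exp |y| := by
      have := Real.quadratic_le_exp_of_nonneg (abs_nonneg y)
      rw [sq_abs] at this
      have := abs_nonneg y
      linarith
    have h6 : Real.exp |y| * Real.exp |y| ≤ Real.exp 5 * Real.exp (⟪x, e⟫ ^ 2) := by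
      rw [← Real.exp_add, ← Real.exp_add, Real.exp_le_exp]
      have h7 : |y| ≤ |⟪x, e⟫| + |m| := abs_sub _ _
      have h8 := two_mul_le_add_sq |⟪x, e⟫| 1
      rw [sq_abs] at h8
      linarith
    rw [h2]
    calc 2 * (r ^ 2 * y ^ 2 * Real.exp |z x|)
        ≤ 2 * (r ^ 2 * (2 * Real.exp |y|) * Real.exp |y|) := by gcongr
      _ = 4 * r ^ 2 * (Real.exp |y| * Real.exp |y|) := by ring
      _ ≤ 4 * r ^ 2 * (Real.exp 5 * Real.exp (⟪x, e⟫ ^ 2)) := by gcongr
      _ = _ := by ring
  have iz : Integrable z μ := (him.sub (integrable_const m)).const_mul r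
  have hI : ∫ x, Real.exp (z x) ∂μ ≤ 1 + 16 * Real.exp 5 * r ^ 2 := by
    refine (integral_mono (M5.integrable_bdd hb (by simp only [hz]; fun_prop))
      (((integrable_const 1).add iz).add (hie.const_mul _)) hpt).trans ?_
    simp only [Pi.add_apply]
    rw [integral_add (by exact (integrable_const 1).add iz) (hie.const_mul _),
      integral_add (integrable_const _) iz, integral_const_mul]
    have h0 : ∫ x, (⟪x, e⟫ - m) ∂μ = 0 := by
      rw [integral_sub him (integrable_const _)]
      simp [hm]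
    simp only [hz, integral_const_mul, h0, mul_zero]
    simp only [integral_const, probReal_univ, smul_eq_mul, mul_one, add_zero]
    have := mul_le_mul_of_nonneg_left h4 (show 0 ≤ 4 * Real.exp 5 * r ^ 2 by positivity)
    linarith
  have hp : 0 < ∫ x, Real.exp ⟪d, x⟫ ∂μ :=
    (Real.exp_pos _).trans_le (by simpa only [ex_zero] using exp_ex_le hb 0 0 d)
  rw [hmz] at hI
  have := (Real.log_le_sub_one_of_pos (div_pos hp (Real.exp_pos (r * m)))).trans (by linarith)
    |> (fun h : Real.log _ ≤ 16 * Real.exp 5 * r ^ 2 => h)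
  rw [Real.log_div hp.ne' (Real.exp_pos _).ne', Real.log_exp] at this
  rw [hla]
  exact this

end Vale.Agent.P245.Poly
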