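import Vale.Agent.P245.Assembly
import Vale.Agent.P245.SLC.Lsi
import Vale.Agent.P245.SLC.Approx
import Vale.Agent.P245.Tilt
import Vale.Agent.P245.Poly.Main
import Vale.Agent.P245.Poly.Mat
import Vale.Agent.P245.Poly.Smo
import Vale.Agent.P245.Poly.Breg
import Vale.Agent.P245.Poly.Secant
import Vale.Agent.P245.Poly.SecantBounds
import Vale.Agent.P245.Poly.Two.Breg
import Vale.Agent.P245.Poly.Two.Init
import Vale.Agent.P245.Poly.Two.Coupling
import Vale.Agent.P245.Poly.Two.Final

/-!
# P245: assembly of the bound with exponent two
-/

namespace Vale.Agent.P245.Poly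

/-- The compactly supported case, unconditionally. -/
theorem polyBdd2' : PolyBdd2 :=
  have hI : ImprovedPoincare := Imp.improvedPoincare_of (Imp.nicePoinc poincareSLC) poincareSLC
  have hS : SpectralTail := spectralTail tiltSLC borellThree exCalculus generator hI
  have hRen : RenyiConc := Renyi.renyiConc testApprox mgfSLC poincareSLC mixture
  have hBreg : PolyBreg2 := polyBreg2_of Mat.matStep Mat.expLeTrace Mat.kronQuad secantMart
    secantReg secantValue (secantBounds smoothGrad smoothW hI) obsStep bgBasic bregTransfer
    bregInit2 hS linVarSLC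
  polyBdd2 (polyConc2 hBreg obsStep bgBasic poincareSLC hRen)
    (M8.lsiOfConc_of mixture tiltSLC lsiSLC poincareSLC testApprox)

end Vale.Agent.P245.Poly
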